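import Mathlib

/-!
P200: two endomorphisms with commutator of rank at most one have a common eigenvector.
-/

noncomputable section

namespace Vale.Agent.P200.Tern

open Module

variable {K : Type*} [Field K] [IsAlgClosed K]

/-- Two endomorphisms whose commutator has rank at most one share an eigenvector. -/
theorem exists_common_eigenvector {V : Type*} [AddCommGroup V] [Module K V] [FiniteDimensional K V]
    [Nontrivial V] (P Q : Module.End K V) (h : finrank K (LinearMap.range (P * Q - Q * P)) ≤ 1) :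
    ∃ v : V, v ≠ 0 ∧ ∃ p q : K, P v = p • v ∧ Q v = q • v := by
  suffices key : ∀ m, ∀ W : Submodule K V, finrank K W = m → W ≠ ⊥ → (∀ x ∈ W, P x ∈ W) →
      (∀ x ∈ W, Q x ∈ W) → ∃ v ∈ W, v ≠ 0 ∧ ∃ p q : K, P v = p • v ∧ Q v = q • v by
    obtain ⟨v, -, hv⟩ := key _ ⊤ rfl top_ne_bot (fun _ _ => Submodule.mem_top)
      fun _ _ => Submodule.mem_top
    exact ⟨v, hv⟩
  intro m
  induction m using Nat.strong_induction_on with
  | _ m ih =>
    intro W hm hW hP hQ
    have : Nontrivial W := Submodule.nontrivial_iff_ne_bot.2 hW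
    obtain ⟨μ, hμ⟩ := Module.End.exists_eigenvalue (P.restrict hP)
    obtain ⟨x₀, hx₀⟩ := hμ.exists_hasEigenvector
    have hx₀P : P x₀.1 = μ • x₀.1 := congrArg Subtype.val (hx₀.apply_eq_smul)
    set P' : Module.End K V := P - μ • 1 with hP'
    have hP'x : ∀ y, P' y = P y - μ • y := fun y => rfl
    have hC : ∀ y, (P * Q - Q * P) y = P' (Q y) - Q (P' y) := fun y => by
      simp only [hP'x, LinearMap.sub_apply, Module.End.mul_apply, map_sub, map_smul]
      abel
    set N : Submodule K V := W ⊓ LinearMap.ker P'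
    have hNmem : ∀ y, y ∈ N ↔ y ∈ W ∧ P' y = 0 := fun y => Iff.rfl
    have hx₀N : x₀.1 ∈ N := (hNmem _).2 ⟨x₀.2, by rw [hP'x, hx₀P, sub_self]⟩
    have hx₀0 : x₀.1 ≠ 0 := fun e => hx₀.2 (Subtype.ext e)
    by_cases hker : ∀ y ∈ N, (P * Q - Q * P) y = 0
    · have hQN : ∀ y ∈ N, Q y ∈ N := fun y hy => by
        obtain ⟨hyW, hy0⟩ := (hNmem y).1 hy
        refine (hNmem _).2 ⟨hQ y hyW, ?_⟩
        have := hker y hy
        rwa [hC, hy0, map_zero, sub_zero] at this
      have : Nontrivial N := Submodule.nontrivial_iff_ne_bot.2 fun e =>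
        hx₀0 ((Submodule.eq_bot_iff N).1 e _ hx₀N)
      obtain ⟨ν, hν⟩ := Module.End.exists_eigenvalue (Q.restrict hQN)
      obtain ⟨y, hy⟩ := hν.exists_hasEigenvector
      obtain ⟨hyW, hy0⟩ := (hNmem _).1 y.2
      exact ⟨y.1, hyW, fun e => hy.2 (Subtype.ext e), μ, ν,
        sub_eq_zero.1 ((hP'x _).symm.trans hy0), congrArg Subtype.val hy.apply_eq_smul⟩
    simp only [not_forall] at hker
    obtain ⟨x, hx, hCx⟩ := hker
    obtain ⟨hxW, hx0⟩ := (hNmem x).1 hx
    set U := W.map P'
    have hCxU : (P * Q - Q * P) x ∈ U :=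
      ⟨Q x, hQ x hxW, by rw [hC, hx0, map_zero, sub_zero]⟩
    have hrange : LinearMap.range (P * Q - Q * P) = Submodule.span K {(P * Q - Q * P) x} := by
      refine (Submodule.eq_of_le_of_finrank_le ?_ ?_).symm
      · rw [Submodule.span_singleton_le_iff_mem]; exact ⟨x, rfl⟩
      · rw [finrank_span_singleton hCx]; exact h
    have hall : ∀ y, (P * Q - Q * P) y ∈ U := fun y => by
      have hy : (P * Q - Q * P) y ∈ LinearMap.range (P * Q - Q * P) := ⟨y, rfl⟩
      rw [hrange] at hy
      exact (Submodule.span_singleton_le_iff_mem _ _).2 hCxU hy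
    have hUW : U ≤ W := by
      rintro _ ⟨y, hy, rfl⟩
      rw [hP'x]
      exact sub_mem (hP y hy) (W.smul_mem μ hy)
    have hlt : finrank K U < m := by
      rw [← hm]
      refine Submodule.finrank_lt_finrank_of_lt (lt_of_le_of_ne hUW fun e => hx₀0 ?_)
      set f : W →ₗ[K] V := P' ∘ₗ W.subtype
      have hf := LinearMap.finrank_range_add_finrank_ker f
      have hr : LinearMap.range f = W := by
        rw [LinearMap.range_comp, Submodule.range_subtype]
        exact e
      rw [hr] at hf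
      have hk : LinearMap.ker f = ⊥ := Submodule.finrank_eq_zero.1 (by omega)
      have hmem : x₀ ∈ LinearMap.ker f := ((hNmem _).1 hx₀N).2
      rw [hk, Submodule.mem_bot] at hmem
      exact congrArg Subtype.val hmem
    have hne : U ≠ ⊥ := fun e => hCx ((Submodule.eq_bot_iff U).1 e _ hCxU)
    have hPU : ∀ y ∈ U, P y ∈ U := by
      rintro _ ⟨y, hy, rfl⟩
      exact ⟨P y, hP y hy, by simp only [hP'x, map_sub, map_smul]⟩
    have hQU : ∀ y ∈ U, Q y ∈ U := by
      rintro _ ⟨y, hy, rfl⟩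
      rw [show Q (P' y) = P' (Q y) - (P * Q - Q * P) y by rw [hC]; abel]
      exact sub_mem ⟨Q y, hQ y hy, rfl⟩ (hall y)
    obtain ⟨v, hv, rest⟩ := ih _ hlt U rfl hne hPU hQU
    exact ⟨v, hUW hv, rest⟩

end Vale.Agent.P200.Tern
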