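import Vale.Agent.P200.Tern.Rows
import Vale.Agent.P200.Growth.Equal

/-!
P200: the growth bound of two forms without a common factor in three variables.
-/

noncomputable section

namespace Vale.Agent.P200.Tern

open MvPolynomial Module Finset Deg Quint Growth

variable {K : Type*} [Field K] [IsAlgClosed K]

/-- The growth bound of two forms of degrees `A + 1` and `B + 1` in three variables. -/
def Low (A B : ℕ) (I : Ideal (MvPolynomial (Fin 3) K)) : Prop :=
  ∀ d, ∃ T, T ⊆ Box.sl (u3 A B (d + 1)) 0 (d + 1) ∧ T.card = hilb I (d + 1) ∧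
    (Box.shadow T).card ≤ hilb I d

lemma pre_mono {k : ℕ} (f : Fin k → MvPolynomial (Fin 3) K) {i j : ℕ} (h : i ≤ j) :
    pre f i ≤ pre f j :=
  Ideal.span_mono (Set.image_mono fun _ (hx : _ < i) => lt_of_lt_of_le hx h)

/-- Two forms without a common factor bound the growth. -/
theorem pair_low {f : Fin 2 → MvPolynomial (Fin 3) K} {b : Fin 2 → ℕ} (hb : ∀ i, 1 ≤ b i)
    (hm : b 0 ≤ b 1) (hd : ∀ i, (f i).IsHomogeneous (b i)) (hT : Tall f)
    {I : Ideal (MvPolynomial (Fin 3) K)} (hI : Homog I) (hf : ∀ i, f i ∈ I) :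
    Low (b 0 - 1) (b 1 - 1) I := by
  classical
  intro d
  obtain ⟨l, hl, -, hlQ⟩ := Quint.exists_linear (q := f) (le_refl 2)
  obtain ⟨N, hN⟩ : ∃ N, N = d + 2 + b 1 := ⟨_, rfl⟩
  set q' : Fin 3 → MvPolynomial (Fin 3) K := ![f 0, f 1, l ^ N] with hq'
  set a' : Fin 3 → ℕ := ![b 0, b 1, N] with ha'
  have hlN : (l ^ N).IsHomogeneous N := by simpa using hl.pow N
  have hd' : ∀ i, (q' i).IsHomogeneous (a' i) := fun i => by
    fin_cases i
    · exact hd 0
    · exact hd 1
    · exact hlN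
  have hpre : ∀ i ≤ 2, pre f i ≤ pre q' i := fun i _ => Ideal.span_le.2 (by
    rintro _ ⟨k, hk, rfl⟩
    refine Ideal.subset_span ⟨k.castSucc, hk, ?_⟩
    fin_cases k <;> rfl)
  have hT' : Tall q' := by
    intro i hi P hP hle
    rcases Nat.lt_or_ge i 3 with hi2 | hi3
    · exact hT i (by omega) P hP ((hpre i (by omega)).trans hle)
    obtain rfl : i = 3 := by omega
    have hlP : l ∈ P := hP.mem_of_pow_mem N (hle (Ideal.subset_span ⟨2, by simp, rfl⟩))
    obtain ⟨Q, hQ, hQP⟩ := Ideal.exists_minimalPrimes_le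
      (((hpre 2 le_rfl).trans (pre_mono q' (by omega))).trans hle)
    have := hQ.1.1
    have hlt : Q < P := lt_of_le_of_ne hQP fun e => hlQ 2 le_rfl Q hQ (e ▸ hlP)
    have h2 := hT 2 le_rfl Q hQ.1.1 hQ.1.2
    exact le_trans (by norm_num) ((add_le_add h2 le_rfl).trans
      (Ideal.height_add_one_le_of_lt_of_isPrime hlt))
  obtain ⟨hH, heq⟩ := sup_powers hI (g := fun _ : Fin 1 => l ^ N) fun _ => hlN
  have hbad : FewBad a' q' := Or.inl (by
    have hsub : bad a' q' ⊆ ({0, 1} : Finset (Fin 3)) := fun i hi => by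
      fin_cases i
      · simp
      · simp
      · exact absurd ⟨fun _ => l, fun _ => hl, by
          rw [Finset.prod_const, Finset.card_univ, Fintype.card_fin]; rfl⟩ (mem_filter.1 hi).2
    exact (card_le_card hsub).trans (card_le_two))
  have hgood := Deg.good_hilb 3 _ hH a'
    (fun i => by
      have := hb 0; have := hb 1
      fin_cases i <;> simp [a'] <;> omega)
    (Fin.monotone_iff_le_succ.2 fun i => by fin_cases i <;> simp [a'] <;> omega) q'
    (fun i => by
      fin_cases i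
      · exact Submodule.mem_sup_left (hf 0)
      · exact Submodule.mem_sup_left (hf 1)
      · exact Submodule.mem_sup_right (Ideal.subset_span ⟨0, rfl⟩))
    hd' (tall_finiteColength hd' hT') hbad
  obtain ⟨T, hT1, hTc, hTs⟩ := hgood.2 d
  refine ⟨T, fun x hx => ?_, by rw [hTc, heq _ (by omega)], hTs.trans_eq (heq _ (by omega))⟩
  obtain ⟨h1, h2⟩ := Box.mem_sl.1 (hT1 hx)
  have e0 : x 0 ≤ b 0 - 1 := h1 0
  have e1 : x 1 ≤ b 1 - 1 := h1 1
  rw [Fin.sum_univ_three] at h2
  exact mem_u3.2 ⟨⟨e0, e1, by omega⟩, by omega⟩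

end Vale.Agent.P200.Tern
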