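import Vale.Agent.P200.Betti.Basic

/-!
P200: in three variables the middle Betti row is fixed by the Hilbert function and the two outer
rows, so the bounds on generators and socle bound it as well.
-/

noncomputable section

namespace Vale.Agent.P200.Tern

open MvPolynomial Module Finset Deg Betti

variable {K : Type*} [Field K] {n : ℕ}

/-- The monomial ideal of a set of exponents. -/
def monIdeal (K : Type*) [Field K] (M : Set (Fin n → ℕ)) : Ideal (MvPolynomial (Fin n) K) :=
  Ideal.span ((fun s => monomial s (1 : K)) '' {s : Fin n →₀ ℕ | ⇑s ∈ M})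

/-- Families of forms of degree `e` killed by the Koszul differential modulo `I`. -/
def cycles (I : Ideal (MvPolynomial (Fin n) K)) (e : ℕ) :
    Submodule K (Fin n → MvPolynomial (Fin n) K) where
  carrier := {p | (∀ i, (p i).IsHomogeneous e) ∧ ∀ i j, X i * p j - X j * p i ∈ I}
  add_mem' ha hb := ⟨fun i => (ha.1 i).add (hb.1 i), fun i j => by
    simp only [Pi.add_apply, mul_add, add_sub_add_comm]; exact add_mem (ha.2 i j) (hb.2 i j)⟩
  zero_mem' := ⟨fun _ => isHomogeneous_zero _ _ _, fun i j => by simp⟩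
  smul_mem' r p hp := ⟨fun i => (part K n e).smul_mem r (hp.1 i), fun i j => by
    simp only [Pi.smul_apply, mul_smul_comm, ← smul_sub]
    exact Submodule.smul_of_tower_mem _ r (hp.2 i j)⟩

/-- The multiples of the vector of variables, modulo `I`, in degree `e`. -/
def bounds (I : Ideal (MvPolynomial (Fin n) K)) (e : ℕ) :
    Submodule K (Fin n → MvPolynomial (Fin n) K) where
  carrier := {p | (∀ i, (p i).IsHomogeneous e) ∧
    ∃ r : MvPolynomial (Fin n) K, ∀ i, p i - X i * r ∈ I}
  add_mem' := fun ⟨ha, r, hr⟩ ⟨hb, s, hs⟩ => ⟨fun i => (ha i).add (hb i), r + s, fun i => by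
    simp only [Pi.add_apply, mul_add, add_sub_add_comm]; exact add_mem (hr i) (hs i)⟩
  zero_mem' := ⟨fun _ => isHomogeneous_zero _ _ _, 0, fun i => by simp⟩
  smul_mem' c p := fun ⟨hp, r, hr⟩ => ⟨fun i => (part K n e).smul_mem c (hp i), c • r, fun i => by
    simp only [Pi.smul_apply, mul_smul_comm, ← smul_sub]
    exact Submodule.smul_of_tower_mem _ c (hr i)⟩

/-- For three variables: the Betti number `β_{2, e+2}` of the quotient by `I`, as Koszul homology. -/
def koszulTwo (I : Ideal (MvPolynomial (Fin n) K)) (e : ℕ) : ℕ :=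
  finrank K (cycles I e) - finrank K (bounds I e)

lemma bounds_le_cycles (I : Ideal (MvPolynomial (Fin n) K)) (e : ℕ) :
    bounds I e ≤ cycles I e := by
  rintro p ⟨hp, r, hr⟩
  refine ⟨hp, fun i j => ?_⟩
  rw [show X i * p j - X j * p i = X i * (p j - X j * r) - X j * (p i - X i * r) by ring]
  exact sub_mem (I.mul_mem_left _ (hr j)) (I.mul_mem_left _ (hr i))

/-- The span of the multiples of a degree by the variables. -/
def grow (I : Ideal (MvPolynomial (Fin n) K)) (d : ℕ) : Submodule K (MvPolynomial (Fin n) K) :=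
  Submodule.span K {r | ∃ i, ∃ p ∈ piece I d, r = (X i : MvPolynomial (Fin n) K) * p}

/-- Vectors with all entries in a submodule. -/
def cube (P : Submodule K (MvPolynomial (Fin 3) K)) :
    Submodule K (Fin 3 → MvPolynomial (Fin 3) K) :=
  Submodule.pi Set.univ fun _ => P

lemma mem_cube {P : Submodule K (MvPolynomial (Fin 3) K)} {p : Fin 3 → MvPolynomial (Fin 3) K} :
    p ∈ cube P ↔ ∀ i, p i ∈ P := by simp [cube]

lemma cube_mono {P Q : Submodule K (MvPolynomial (Fin 3) K)} (h : P ≤ Q) : cube P ≤ cube Q :=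
  fun p hp => mem_cube.2 fun i => h (mem_cube.1 hp i)

lemma finrank_cube (P : Submodule K (MvPolynomial (Fin 3) K)) [Module.Finite K P] :
    finrank K (cube P) = 3 * finrank K P := by
  let φ : (Fin 3 → P) →ₗ[K] (Fin 3 → MvPolynomial (Fin 3) K) :=
    LinearMap.pi fun i => P.subtype.comp (LinearMap.proj i)
  have hr : LinearMap.range φ = cube P := by
    ext p
    rw [mem_cube]
    exact ⟨fun ⟨u, hu⟩ i => hu ▸ (u i).2, fun h => ⟨fun i => ⟨p i, h i⟩, rfl⟩⟩
  rw [← hr, LinearMap.finrank_range_of_inj fun u v h => funext fun i => Subtype.ext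
    (show (u i).1 = (v i).1 from congrFun h i)]
  rw [Module.finrank_pi_fintype]
  simp

lemma finite_cube (P : Submodule K (MvPolynomial (Fin 3) K)) [Module.Finite K P] :
    Module.Finite K (cube P) := by
  let φ : (Fin 3 → P) →ₗ[K] cube P :=
    { toFun := fun u => ⟨fun i => (u i).1, mem_cube.2 fun i => (u i).2⟩
      map_add' := fun _ _ => rfl
      map_smul' := fun _ _ => rfl }
  exact Module.Finite.of_surjective φ fun p => ⟨fun i => ⟨p.1 i, mem_cube.1 p.2 i⟩, rfl⟩

/-- The cross product with the variables. -/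
def cross (K : Type*) [Field K] :
    (Fin 3 → MvPolynomial (Fin 3) K) →ₗ[K] (Fin 3 → MvPolynomial (Fin 3) K) where
  toFun p := ![X 1 * p 2 - X 2 * p 1, X 2 * p 0 - X 0 * p 2, X 0 * p 1 - X 1 * p 0]
  map_add' p q := by funext i; fin_cases i <;> simp [mul_add] <;> abel
  map_smul' c p := by funext i; fin_cases i <;> simp [mul_smul_comm, smul_sub]

/-- The product with the variables. -/
def dot (K : Type*) [Field K] : (Fin 3 → MvPolynomial (Fin 3) K) →ₗ[K] MvPolynomial (Fin 3) K where
  toFun p := X 0 * p 0 + X 1 * p 1 + X 2 * p 2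
  map_add' p q := by simp [mul_add]; abel
  map_smul' c p := by simp [mul_smul_comm, smul_add]

lemma cross_isHomogeneous {p : Fin 3 → MvPolynomial (Fin 3) K} {e : ℕ}
    (hp : ∀ i, (p i).IsHomogeneous e) (i : Fin 3) : (cross K p i).IsHomogeneous (e + 1) := by
  have h : ∀ a b : Fin 3, (X a * p b).IsHomogeneous (e + 1) := fun a b =>
    add_comm 1 e ▸ (isHomogeneous_X K a).mul (hp b)
  fin_cases i <;> exact (h _ _).sub (h _ _)

lemma cross_mem_iff {I : Ideal (MvPolynomial (Fin 3) K)} {p : Fin 3 → MvPolynomial (Fin 3) K} :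
    (∀ i j, X i * p j - X j * p i ∈ I) ↔ ∀ i, cross K p i ∈ I := by
  refine ⟨fun h i => by fin_cases i <;> exact h _ _, fun h i j => ?_⟩
  have h0 : X 1 * p 2 - X 2 * p 1 ∈ I := h 0
  have h1 : X 2 * p 0 - X 0 * p 2 ∈ I := h 1
  have h2 : X 0 * p 1 - X 1 * p 0 ∈ I := h 2
  fin_cases i <;> fin_cases j <;>
    first | (simp; done) | assumption | (rw [← neg_mem_iff, neg_sub]; assumption)

/-- An element times a variable outside a coordinate ideal. -/
lemma mem_coord {s : Set (Fin 3)} {i : Fin 3} (hi : i ∉ s) {p : MvPolynomial (Fin 3) K}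
    (h : X i * p ∈ Ideal.span (X '' s : Set (MvPolynomial (Fin 3) K))) :
    p ∈ Ideal.span (X '' s : Set (MvPolynomial (Fin 3) K)) := by
  rw [mem_ideal_span_X_image] at h ⊢
  intro m hm
  obtain ⟨j, hj, hmj⟩ := h (Finsupp.single i 1 + m) (by
    rw [support_X_mul, Finset.mem_map]; exact ⟨m, hm, rfl⟩)
  refine ⟨j, hj, ?_⟩
  rwa [Finsupp.add_apply, Finsupp.single_eq_of_ne (fun e : j = i => hi (e ▸ hj)), zero_add] at hmj

/-- The Koszul complex of three variables is exact in the middle. -/
lemma exists_cross {u : Fin 3 → MvPolynomial (Fin 3) K} {e : ℕ}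
    (hu : ∀ i, (u i).IsHomogeneous (e + 1)) (h : dot K u = 0) :
    ∃ p, (∀ i, (p i).IsHomogeneous e) ∧ cross K p = u := by
  have h' : X 0 * u 0 + X 1 * u 1 + X 2 * u 2 = 0 := h
  have hset : Ideal.span (X '' {0, 2} : Set (MvPolynomial (Fin 3) K)) =
      Ideal.span {X 0, X 2} := by rw [Set.image_pair]
  obtain ⟨a, w, hu1⟩ : ∃ a w, a * X 0 + w * X 2 = u 1 := by
    rw [← Ideal.mem_span_pair, ← hset]
    refine mem_coord (i := 1) (by simp) ?_
    rw [hset, Ideal.mem_span_pair]
    exact ⟨-u 0, -u 2, by linear_combination -h'⟩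
  obtain ⟨b, hb⟩ : ∃ b, b * X 0 = u 2 + X 1 * w := by
    rw [← Ideal.mem_span_singleton', ← Set.image_singleton (f := X (R := K)) (a := (0 : Fin 3))]
    refine mem_coord (i := 2) (by simp) ?_
    rw [Set.image_singleton, Ideal.mem_span_singleton']
    exact ⟨-u 0 - X 1 * a, by linear_combination -h' - X 1 * hu1⟩
  have hu0 : u 0 = -(X 1 * a) - X 2 * b := by
    have : X 0 * (u 0 + X 1 * a + X 2 * b) = 0 := by linear_combination h' + X 1 * hu1 + X 2 * hb
    have := (mul_eq_zero.1 this).resolve_left (X_ne_zero _)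
    linear_combination this
  refine ⟨fun i => homogeneousComponent e (![w, b, -a] i),
    fun i => homogeneousComponent_isHomogeneous _ _, funext fun i => ?_⟩
  have hcc : ∀ (i j : Fin 3) (f g : MvPolynomial (Fin 3) K),
      X i * homogeneousComponent e f - X j * homogeneousComponent e g =
        homogeneousComponent (e + 1) (X i * f - X j * g) := fun i j f g => by
    rw [map_sub, component_mul (isHomogeneous_X K i), component_mul (isHomogeneous_X K j)]
  show ![_, _, _] i = u i
  rw [← homogeneousComponent_eq_self (hu i)]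
  fin_cases i <;> simp only [Matrix.cons_val_zero, Matrix.cons_val_one, Matrix.cons_val,
    Fin.zero_eta, Fin.mk_one, Fin.reduceFinMk, hcc]
  · congr 1; rw [hu0]; ring
  · congr 1; linear_combination hu1
  · congr 1; linear_combination hb

/-- The cycles are counted by the Hilbert function and the new forms one degree higher. -/
theorem finrank_cycles {I : Ideal (MvPolynomial (Fin 3) K)} (e : ℕ) :
    finrank K (cycles I e) + finrank K (grow I (e + 1)) +
        finrank K ↥(cube (part K 3 (e + 1)) ⊓ LinearMap.ker (dot K)) =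
      3 * finrank K (part K 3 e) + 3 * finrank K (piece I (e + 1)) := by
  have hf : ∀ j, Module.Finite K ↥(piece I j) := fun j =>
    Submodule.finiteDimensional_of_le inf_le_right
  set V := cube (part K 3 e)
  set P := cube (piece I (e + 1))
  set U := V.map (cross K) ⊔ P
  have hfV : Module.Finite K V := finite_cube _
  have hfV1 : Module.Finite K (cube (part K 3 (e + 1))) := finite_cube _
  have hUle : U ≤ cube (part K 3 (e + 1)) := by
    refine sup_le ?_ (cube_mono inf_le_right)
    rintro _ ⟨p, hp, rfl⟩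
    exact mem_cube.2 (cross_isHomogeneous (mem_cube.1 hp))
  have hfU : Module.Finite K U := Submodule.finiteDimensional_of_le hUle
  set T := (P.mkQ.comp (cross K)).domRestrict V with hT
  have hker : LinearMap.ker T = (cycles I e).comap V.subtype := by
    ext ⟨p, hp⟩
    have hp' := mem_cube.1 hp
    rw [LinearMap.mem_ker, Submodule.mem_comap]
    show P.mkQ (cross K p) = 0 ↔ _ ∧ _
    rw [Submodule.mkQ_apply, Submodule.Quotient.mk_eq_zero, mem_cube, cross_mem_iff]
    exact ⟨fun h => ⟨hp', fun i => (mem_piece.1 (h i)).1⟩,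
      fun h i => mem_piece.2 ⟨h.2 i, cross_isHomogeneous hp' i⟩⟩
  have h1 := LinearMap.finrank_range_add_finrank_ker T
  have e1 : finrank K ((cycles I e).comap V.subtype) = finrank K (cycles I e) :=
    (Submodule.comapSubtypeEquivOfLe (q := V)
      fun p (hp : p ∈ cycles I e) => mem_cube.2 hp.1).finrank_eq
  have e2 : LinearMap.range T = U.map P.mkQ := by
    rw [hT, LinearMap.range_domRestrict, Submodule.map_comp, Submodule.map_sup,
      Submodule.mkQ_map_self, sup_bot_eq]
  rw [hker, e1, e2, finrank_cube] at h1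
  have h2 := LinearMap.finrank_range_add_finrank_ker (P.mkQ.domRestrict U)
  rw [LinearMap.range_domRestrict, LinearMap.ker_domRestrict, Submodule.ker_mkQ,
    (Submodule.comapSubtypeEquivOfLe (le_sup_right : P ≤ U)).finrank_eq, finrank_cube] at h2
  have h3 := LinearMap.finrank_range_add_finrank_ker ((dot K).domRestrict U)
  have e3 : U.map (dot K) = grow I (e + 1) := by
    refine le_antisymm (Submodule.map_le_iff_le_comap.2 (sup_le ?_ ?_)) (Submodule.span_le.2 ?_)
    · rintro _ ⟨p, -, rfl⟩
      have : dot K (cross K p) = 0 := by simp [dot, cross]; ring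
      rw [Submodule.mem_comap, this]
      exact zero_mem _
    · intro p hp
      have h : ∀ i, X i * p i ∈ grow I (e + 1) := fun i =>
        Submodule.subset_span ⟨i, p i, mem_cube.1 hp i, rfl⟩
      exact add_mem (add_mem (h 0) (h 1)) (h 2)
    · rintro _ ⟨i, p, hp, rfl⟩
      refine ⟨Pi.single i p, Submodule.mem_sup_right (mem_cube.2 fun j => ?_), ?_⟩
      · rcases eq_or_ne j i with rfl | hj <;> simp [*]
      · fin_cases i <;> simp [dot]
  have e4 : finrank K ↥((LinearMap.ker (dot K)).comap U.subtype) =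
      finrank K ↥(cube (part K 3 (e + 1)) ⊓ LinearMap.ker (dot K)) := by
    rw [← Submodule.finrank_map_subtype_eq U, Submodule.map_comap_subtype]
    have hsame : U ⊓ LinearMap.ker (dot K) =
        cube (part K 3 (e + 1)) ⊓ LinearMap.ker (dot K) := by
      refine le_antisymm (inf_le_inf_right _ hUle) fun u hu => ⟨?_, hu.2⟩
      obtain ⟨p, hp, rfl⟩ := exists_cross (mem_cube.1 hu.1) hu.2
      exact Submodule.mem_sup_left ⟨p, mem_cube.2 hp, rfl⟩
    rw [hsame]
  rw [LinearMap.range_domRestrict, LinearMap.ker_domRestrict, e3, e4] at h3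
  omega

/-- Only the forms of `I` bound in degree zero. -/
theorem finrank_bounds_zero {I : Ideal (MvPolynomial (Fin 3) K)} (hI : Homog I) :
    finrank K (bounds I 0) = 3 * finrank K (piece I 0) := by
  have : Module.Finite K ↥(piece I 0) := Submodule.finiteDimensional_of_le inf_le_right
  rw [show bounds I 0 = cube (piece I 0) from ?_, finrank_cube]
  ext p
  rw [mem_cube]
  constructor
  · rintro ⟨hp, r, hr⟩ i
    have h := hI _ (hr i) 0
    rw [map_sub, homogeneousComponent_eq_self (hp i), mul_comm,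
      component_mul_homog (isHomogeneous_X K i), if_neg (by omega), sub_zero] at h
    exact mem_piece.2 ⟨h, hp i⟩
  · exact fun h => ⟨fun i => (mem_piece.1 (h i)).2, 0, fun i => by simpa using (mem_piece.1 (h i)).1⟩

/-- The boundaries lose the socle. -/
theorem finrank_bounds {I : Ideal (MvPolynomial (Fin 3) K)} (hI : Homog I) (e : ℕ) :
    finrank K (bounds I (e + 1)) + finrank K (socle I e) =
      3 * finrank K (piece I (e + 1)) + finrank K (part K 3 e) := by
  have : Module.Finite K ↥(piece I (e + 1)) := Submodule.finiteDimensional_of_le inf_le_right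
  set P := cube (piece I (e + 1))
  set μ : MvPolynomial (Fin 3) K →ₗ[K] (Fin 3 → MvPolynomial (Fin 3) K) :=
    LinearMap.pi fun i => LinearMap.mulLeft K (X i) with hμ
  have hhom : ∀ r : MvPolynomial (Fin 3) K, r.IsHomogeneous e → ∀ i,
      (X i * r).IsHomogeneous (e + 1) := fun r hr i => add_comm 1 e ▸ (isHomogeneous_X K i).mul hr
  have hsup : P ⊔ (part K 3 e).map μ = bounds I (e + 1) := by
    refine le_antisymm (sup_le (fun p hp => ⟨fun i => (mem_piece.1 (mem_cube.1 hp i)).2, 0,
      fun i => by simpa using (mem_piece.1 (mem_cube.1 hp i)).1⟩) ?_) ?_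
    · rintro _ ⟨r, hr, rfl⟩
      exact ⟨fun i => hhom r hr i, r, fun i => by simp [μ]⟩
    · rintro p ⟨hp, r, hr⟩
      refine Submodule.mem_sup.2 ⟨fun i => p i - X i * homogeneousComponent e r, ?_,
        μ (homogeneousComponent e r), ⟨_, homogeneousComponent_isHomogeneous e r, rfl⟩,
        funext fun i => by simp [μ]⟩
      refine mem_cube.2 fun i => mem_piece.2
        ⟨?_, (hp i).sub (hhom _ (homogeneousComponent_isHomogeneous e r) i)⟩
      have h := hI _ (hr i) (e + 1)
      rwa [map_sub, homogeneousComponent_eq_self (hp i),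
        component_mul (isHomogeneous_X K i)] at h
  set T := (P.mkQ.comp μ).domRestrict (part K 3 e)
  have hker : LinearMap.ker T = (socle I e).comap (part K 3 e).subtype := by
    ext ⟨r, hr⟩
    rw [LinearMap.mem_ker, Submodule.mem_comap]
    show P.mkQ (μ r) = 0 ↔ r.IsHomogeneous e ∧ _
    rw [Submodule.mkQ_apply, Submodule.Quotient.mk_eq_zero, mem_cube]
    exact ⟨fun h => ⟨hr, fun i => (mem_piece.1 (h i)).1⟩,
      fun h i => mem_piece.2 ⟨h.2 i, hhom r hr i⟩⟩
  have h1 := LinearMap.finrank_range_add_finrank_ker T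
  have e1 : finrank K ((socle I e).comap (part K 3 e).subtype) = finrank K (socle I e) :=
    (Submodule.comapSubtypeEquivOfLe (q := part K 3 e)
      fun r (hr : r ∈ socle I e) => hr.1).finrank_eq
  have e2 : LinearMap.range T = (bounds I (e + 1)).map P.mkQ := by
    rw [LinearMap.range_domRestrict, Submodule.map_comp, ← hsup, Submodule.map_sup,
      Submodule.mkQ_map_self, bot_sup_eq]
  rw [hker, e1, e2] at h1
  have hfin : Module.Finite K ↥(bounds I (e + 1)) := by
    have : Module.Finite K (cube (part K 3 (e + 1))) := finite_cube _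
    exact Submodule.finiteDimensional_of_le (S₂ := cube (part K 3 (e + 1)))
      fun p (hp : p ∈ bounds I (e + 1)) => mem_cube.2 hp.1
  have hPle : P ≤ bounds I (e + 1) := hsup ▸ le_sup_left
  have h2 := LinearMap.finrank_range_add_finrank_ker (P.mkQ.domRestrict (bounds I (e + 1)))
  rw [LinearMap.range_domRestrict, LinearMap.ker_domRestrict, Submodule.ker_mkQ,
    (Submodule.comapSubtypeEquivOfLe hPle).finrank_eq, finrank_cube] at h2
  omega

lemma finrank_restrictSupport (U : Set (Fin n → ℕ)) :
    finrank K (restrictSupport K {s : Fin n →₀ ℕ | ⇑s ∈ U}) = U.ncard := by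
  rw [Module.finrank_eq_nat_card_basis (basisRestrictSupport K _), Nat.card_coe_set_eq,
    ← Set.ncard_image_of_injective _ DFunLike.coe_injective]
  congr 1
  ext x
  exact ⟨fun ⟨s, hs, e⟩ => e ▸ hs, fun hx => ⟨Finsupp.equivFunOnFinite.symm x, by simpa using hx,
    by simp⟩⟩

lemma mem_monIdeal {M : Set (Fin n → ℕ)} (hM : ∀ x ∈ M, ∀ i, x + Pi.single i 1 ∈ M)
    {p : MvPolynomial (Fin n) K} : p ∈ monIdeal K M ↔ ∀ s ∈ p.support, ⇑s ∈ M := by
  have hup : ∀ k, ∀ x ∈ M, ∀ y, x ≤ y → ∑ i, y i = ∑ i, x i + k → y ∈ M := by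
    intro k
    induction k with
    | zero =>
      intro x hx y hxy hs
      rwa [← show x = y from funext fun i =>
        (sum_eq_sum_iff_of_le (s := univ) fun i _ => hxy i).1 (by omega) i (mem_univ i)]
    | succ k ih =>
      intro x hx y hxy hs
      obtain ⟨i, hi⟩ : ∃ i, x i < y i := by
        by_contra h
        simp only [not_exists, not_lt] at h
        have := sum_le_sum (s := univ) fun i _ => h i
        omega
      refine ih _ (hM x hx i) y (fun j => ?_) ?_
      · rcases eq_or_ne j i with rfl | hj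
        · simpa using hi
        · simpa [hj] using hxy j
      · simp [sum_add_distrib]; omega
  rw [monIdeal, mem_ideal_span_monomial_image]
  refine ⟨fun h s hs => ?_, fun h s hs => ⟨s, h s hs, le_rfl⟩⟩
  obtain ⟨t, ht, hts⟩ := h s hs
  exact hup _ t ht s hts
    (Nat.add_sub_cancel' (sum_le_sum fun i _ => hts i)).symm

/-- The middle row of the Betti table in three variables. -/
theorem koszulTwo_le {I : Ideal (MvPolynomial (Fin 3) K)} (hI : Homog I)
    {M : Set (Fin 3 → ℕ)} (hM : ∀ x ∈ M, ∀ i, x + Pi.single i 1 ∈ M)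
    (hH : ∀ d, {x | x ∈ M ∧ ∑ i, x i = d}.ncard = finrank K ↥(piece I d))
    (hgen : ∀ d, finrank K ↥(piece I (d + 1)) ≤
      {x | x ∈ M ∧ ∑ i, x i = d + 1 ∧ ∀ i, ∀ y ∈ M, y + Pi.single i 1 ≠ x}.ncard
        + finrank K ↥(grow I d))
    (hsoc : ∀ d, finrank K ↥(socle I d) ≤
      {x : Fin 3 → ℕ | ∑ i, x i = d ∧ ∀ i, x + Pi.single i 1 ∈ M}.ncard) (e : ℕ) :
    koszulTwo I e ≤ koszulTwo (monIdeal K M) e := by
  set J := monIdeal K M
  have hmem : ∀ p : MvPolynomial (Fin 3) K, p ∈ J ↔ ∀ s ∈ p.support, ⇑s ∈ M := fun p =>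
    mem_monIdeal hM
  have hdeg : ∀ {p : MvPolynomial (Fin 3) K} {d : ℕ}, p.IsHomogeneous d → ∀ s ∈ p.support,
      ∑ i, s i = d := fun {p d} hp s hs => by
    rw [← Finsupp.degree_eq_sum]
    by_contra h'
    exact (MvPolynomial.mem_support_iff.1 hs) (hp.coeff_eq_zero h')
  have hJ : Homog J := fun p hp d => (hmem _).2 fun s hs => (hmem p).1 hp s (by
    rw [MvPolynomial.mem_support_iff, coeff_homogeneousComponent] at hs
    rw [MvPolynomial.mem_support_iff]
    intro h0
    rw [h0, ite_self] at hs
    exact hs rfl)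
  have hpiece : ∀ d, finrank K ↥(piece J d) = finrank K ↥(piece I d) := fun d => by
    rw [← hH, ← finrank_restrictSupport (K := K),
      show piece J d = restrictSupport K {s : Fin 3 →₀ ℕ | ⇑s ∈ {x | x ∈ M ∧ ∑ i, x i = d}} from ?_]
    ext p
    rw [mem_piece, hmem, mem_restrictSupport_iff]
    refine ⟨fun h s hs => ⟨h.1 s hs, hdeg h.2 s hs⟩, fun h => ⟨fun s hs => (h hs).1, ?_⟩⟩
    intro s hs
    have := (h (MvPolynomial.mem_support_iff.2 hs)).2
    rw [Finsupp.weight_apply, Finsupp.sum_fintype] <;> simp [this]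
  have hgrow : ∀ d, finrank K ↥(grow J d) ≤ finrank K ↥(grow I d) := fun d => by
    set G := {x | x ∈ M ∧ ∑ i, x i = d + 1 ∧ ∀ i, ∀ y ∈ M, y + Pi.single i 1 ≠ x}
    set A := {x | x ∈ M ∧ ∑ i, x i = d + 1}
    have hA : A.Finite := (finite_slice 3 (d + 1)).subset fun x hx => hx.2
    have : Module.Finite K (restrictSupport K {s : Fin 3 →₀ ℕ | ⇑s ∈ A \ G}) := by
      have : Finite {s : Fin 3 →₀ ℕ | ⇑s ∈ A \ G} := ((hA.subset Set.sdiff_subset).preimage
        DFunLike.coe_injective.injOn).to_subtype
      exact Module.Finite.of_basis (basisRestrictSupport K _)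
    have hle : finrank K ↥(grow J d) ≤ (A \ G).ncard := by
      rw [← finrank_restrictSupport (K := K)]
      refine Submodule.finrank_mono (Submodule.span_le.2 ?_)
      rintro _ ⟨i, p, hp, rfl⟩
      rw [SetLike.mem_coe, mem_restrictSupport_iff, support_X_mul]
      intro s hs
      obtain ⟨t, ht, rfl⟩ := Finset.mem_map.1 (Finset.mem_coe.1 hs)
      obtain ⟨hpJ, hpd⟩ := mem_piece.1 hp
      have h1 := (hmem p).1 hpJ t ht
      have e1 : ⇑(addLeftEmbedding (Finsupp.single i 1) t) = ⇑t + Pi.single i 1 := by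
        rw [addLeftEmbedding_apply, Finsupp.coe_add, Finsupp.single_eq_pi_single, add_comm]
      refine ⟨⟨?_, ?_⟩, fun hG => ?_⟩
      · rw [e1]; exact hM _ h1 i
      · rw [e1]; simp [sum_add_distrib, hdeg hpd t ht]
      · exact hG.2.2 i _ h1 e1.symm
    have hGA : G ⊆ A := fun x hx => ⟨hx.1, hx.2.1⟩
    have h2 := Set.ncard_sdiff_add_ncard_of_subset hGA hA
    have h3 : A.ncard = _ := hH (d + 1)
    have h4 : _ ≤ G.ncard + _ := hgen d
    omega
  have hsocle : ∀ d, finrank K ↥(socle I d) ≤ finrank K ↥(socle J d) := fun d => by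
    refine (hsoc d).trans ?_
    rw [← finrank_restrictSupport (K := K)]
    have : Module.Finite K (socle J d) :=
      Submodule.finiteDimensional_of_le (S₂ := part K 3 d) fun p hp => hp.1
    refine Submodule.finrank_mono fun p hp => ?_
    rw [mem_restrictSupport_iff] at hp
    refine ⟨fun s hs => ?_, fun i => (hmem _).2 fun s hs => ?_⟩
    · have := (hp (MvPolynomial.mem_support_iff.2 hs)).1
      rw [Finsupp.weight_apply, Finsupp.sum_fintype] <;> simp [this]
    · rw [support_X_mul] at hs
      obtain ⟨t, ht, rfl⟩ := Finset.mem_map.1 hs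
      rw [addLeftEmbedding_apply, Finsupp.coe_add, Finsupp.single_eq_pi_single, add_comm]
      exact (hp ht).2 i
  have hJfin : Module.Finite K (cube (part K 3 e)) := finite_cube _
  have hb : ∀ L : Ideal (MvPolynomial (Fin 3) K),
      finrank K (bounds L e) ≤ finrank K (cycles L e) := fun L =>
    have : Module.Finite K (cycles L e) :=
      Submodule.finiteDimensional_of_le (S₂ := cube (part K 3 e))
        fun p (hp : p ∈ cycles L e) => mem_cube.2 hp.1
    Submodule.finrank_mono (bounds_le_cycles L e)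
  have c1 := finrank_cycles (I := I) e
  have c2 := finrank_cycles (I := J) e
  have := hb I; have := hb J
  have := hgrow (e + 1)
  have := hpiece (e + 1)
  unfold koszulTwo
  rcases e with _ | e
  · have := finrank_bounds_zero hI; have := finrank_bounds_zero hJ
    have := hpiece 0
    omega
  · have := finrank_bounds hI e; have := finrank_bounds hJ e
    have := hsocle e; have := hpiece (e + 1)
    omega

end Vale.Agent.P200.Tern
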