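import Vale.Agent.P200.Growth.Linkage
import Vale.Agent.P200.Box.CL

/-!
P200: counting in slices of a box in three variables whose last side is long.
-/

namespace Vale.Agent.P200.Tern

open Finset

/-- The box with sides `A`, `B` and a long last side. -/
def u3 (A B D : ℕ) : Fin 3 → ℕ := ![A, B, D]

lemma u3_mono {A B D : ℕ} (h : A ≤ B) (h' : B ≤ D) : Monotone (u3 A B D) :=
  Fin.monotone_iff_le_succ.2 fun i => by fin_cases i <;> simp [u3, *]

lemma mem_u3 {A B D d : ℕ} {x : Fin 3 → ℕ} :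
    x ∈ Box.sl (u3 A B D) 0 d ↔ (x 0 ≤ A ∧ x 1 ≤ B ∧ x 2 ≤ D) ∧ x 0 + x 1 + x 2 = d := by
  simp [Box.mem_sl, Fin.forall_fin_succ, Fin.sum_univ_three, u3]

lemma mem_vec {A B D d i j k : ℕ} (h : (i ≤ A ∧ j ≤ B ∧ k ≤ D) ∧ i + j + k = d) :
    ![i, j, k] ∈ Box.sl (u3 A B D) 0 d := mem_u3.2 (by simpa using h)

lemma lex_lt_three {x y : Fin 3 → ℕ}
    (h : x 0 < y 0 ∨ x 0 = y 0 ∧ (x 1 < y 1 ∨ x 1 = y 1 ∧ x 2 < y 2)) :
    toLex x < toLex y := by
  rcases h with h | ⟨h0, h | ⟨h1, h⟩⟩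
  · exact Box.lex_lt_of 0 (fun j hj => absurd hj (by simp)) h
  · refine Box.lex_lt_of 1 (fun j hj => ?_) h
    fin_cases j <;> simp_all
  · refine Box.lex_lt_of 2 (fun j hj => ?_) h
    fin_cases j <;> simp_all

/-- The last exponent can always be lowered. -/
lemma card_le_shadow_add (T : Finset (Fin 3 → ℕ)) :
    T.card ≤ (Box.shadow T).card + (T.filter fun x => x 2 = 0).card := by
  classical
  have h1 : ((T.filter fun x => ¬ x 2 = 0).image fun x => Box.down x 2) ⊆ Box.shadow T :=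
    image_subset_iff.2 fun x hx => Box.mem_shadow.2
      ⟨2, by rw [Box.up_down (Nat.pos_of_ne_zero (mem_filter.1 hx).2)]; exact (mem_filter.1 hx).1⟩
  have h2 : ((T.filter fun x => ¬ x 2 = 0).image fun x => Box.down x 2).card =
      (T.filter fun x => ¬ x 2 = 0).card := card_image_of_injOn fun x hx y hy e => by
    rw [← Box.up_down (i := 2) (Nat.pos_of_ne_zero (mem_filter.1 hx).2),
      show Box.down x 2 = Box.down y 2 from e,
      Box.up_down (Nat.pos_of_ne_zero (mem_filter.1 hy).2)]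
  have := card_filter_add_card_filter_not (s := T) fun x => x 2 = 0
  have := card_le_card h1
  omega

/-- For an initial segment nothing else is in the shadow. -/
lemma shadow_seg_le {A B D t : ℕ} (hD : t + 1 ≤ D) {G : Finset (Fin 3 → ℕ)}
    (hG : Box.IsSeg (Box.sl (u3 A B D) 0 (t + 1)) G) :
    (Box.shadow G).card + (G.filter fun x => x 2 = 0).card ≤ G.card := by
  classical
  have h1 : Box.shadow G ⊆ (G.filter fun x => ¬ x 2 = 0).image fun x => Box.down x 2 := by
    intro y hy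
    obtain ⟨i, hi⟩ := Box.mem_shadow.1 hy
    obtain ⟨⟨hA, hB, hD'⟩, hs⟩ := mem_u3.1 (hG.1 hi)
    refine mem_image.2 ⟨Box.up y 2, mem_filter.2 ⟨?_, by simp [Box.up]⟩, Box.down_up y 2⟩
    rcases eq_or_ne i 2 with rfl | hi2
    · exact hi
    refine hG.2 _ hi _ (mem_u3.2 ?_) (lex_lt_three ?_)
    · fin_cases i <;> simp [Box.up] at hA hB hD' hs hi2 ⊢ <;> omega
    · fin_cases i <;> simp [Box.up] at hi2 ⊢
  have := (card_le_card h1).trans card_image_le
  have := card_filter_add_card_filter_not (s := G) fun x => x 2 = 0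
  omega

/-- A segment through a point contains the rows before it. -/
lemma rows_le {A B D d : ℕ} (hD : d ≤ D) {G : Finset (Fin 3 → ℕ)}
    (hG : Box.IsSeg (Box.sl (u3 A B D) 0 d) G) {x : Fin 3 → ℕ} (hx : x ∈ G) {i₀ j₀ : ℕ}
    (hi : i₀ ≤ x 0) (hj : i₀ = x 0 → j₀ ≤ x 1) (hd : i₀ + j₀ ≤ d) (hB : i₀ + B ≤ d + 1)
    (hjB : j₀ ≤ B) : i₀ * (B + 1) + j₀ + 1 ≤ G.card := by
  classical
  obtain ⟨⟨hxA, -, -⟩, hxs⟩ := mem_u3.1 (hG.1 hx)
  set P := (range i₀ ×ˢ range (B + 1)) ∪ ({i₀} ×ˢ range (j₀ + 1))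
  have hc : P.card = i₀ * (B + 1) + j₀ + 1 := by
    rw [card_union_of_disjoint, card_product, card_product, card_range, card_range, card_range,
      card_singleton]
    · ring
    · rw [Finset.disjoint_left]
      intro p h1 h2
      simp only [mem_product, mem_range, mem_singleton] at h1 h2
      omega
  rw [← hc]
  refine card_le_card_of_injOn (fun p => ![p.1, p.2, d - p.1 - p.2]) (fun p hp => ?_)
    fun p _ p' _ h => ?_
  · have hp' : (p.1 < i₀ ∧ p.2 ≤ B) ∨ (p.1 = i₀ ∧ p.2 ≤ j₀) := by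
      rw [Finset.mem_coe] at hp
      simp only [P, mem_union, mem_product, mem_range, mem_singleton] at hp
      omega
    set v : Fin 3 → ℕ := ![p.1, p.2, d - p.1 - p.2]
    have hv : v ∈ Box.sl (u3 A B D) 0 d := mem_vec (by omega)
    by_cases hlt : toLex v < toLex x
    · exact hG.2 x hx v hv hlt
    have hne := mt (lex_lt_three (x := v) (y := x)) hlt
    simp only [v, Matrix.cons_val_zero, Matrix.cons_val_one, Matrix.cons_val_two] at hne
    have : v = x := funext fun k => by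
      fin_cases k <;> simp [v] <;> omega
    show v ∈ (G : Set (Fin 3 → ℕ))
    rw [this]
    exact hx
  · exact Prod.ext (by simpa using congrFun h 0) (by simpa using congrFun h 1)

/-- A segment of size `j` sets the least shadow of `j` points. -/
lemma seg_shadow_le {A B D d j : ℕ} (hm : A ≤ B) (hD : B ≤ D) {T G : Finset (Fin 3 → ℕ)}
    (hT : T ⊆ Box.sl (u3 A B D) 0 (d + 1)) (hj : j ≤ T.card)
    (hG : Box.IsSeg (Box.sl (u3 A B D) 0 (d + 1)) G) (hGc : G.card = j) :
    (Box.shadow G).card ≤ (Box.shadow T).card := by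
  obtain ⟨U, hU, hUc⟩ := exists_subset_card_eq hj
  exact (Box.clements_lindstrom 3 _ (u3_mono hm hD) 0 d U G (hU.trans hT) hG
    (hGc.trans hUc.symm)).trans (card_le_card (Box.shadow_mono hU))

end Vale.Agent.P200.Tern
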